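import Vale.Agent.P099.Main

/-!
In every irrational triangle, the billiard flow has no nontrivial invariant set of finite
angular perimeter and no nonconstant eigenfunction of bounded angular variation.
-/

namespace Vale.Agent.Results.P099.BVRigidity

open MeasureTheory Complex Vale.Agent.P099
open scoped ENNReal NNReal

theorem result : ∀ A B C : ℂ, ¬ Collinear ℝ ({A, B, C} : Set ℂ) → IrrationalTriangle A B C →
    IsProbabilityMeasure (phaseMeasure A B C) ∧
    (∀ t : ℝ, 0 ≤ t → ∀ᵐ z ∂phaseMeasure A B C,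
      ∃! z' : ℂ × Dir, z'.1 ∈ openTriangle A B C ∧ Reaches A B C z t z') ∧
    (∀ (lam : ℝ) (F : ℂ × Dir → ℂ) (K : ℝ≥0), Integrable F (phaseMeasure A B C) →
      (∀ t : ℝ, 0 ≤ t → ∀ᵐ z ∂phaseMeasure A B C, ∀ z' : ℂ × Dir,
        z'.1 ∈ openTriangle A B C → Reaches A B C z t z' →
          F z' = cexp (((lam * t : ℝ) : ℂ) * I) * F z) →
      (∀ u : ℝ, ∫⁻ z, ‖F (z.1, z.2 + (u : Dir)) - F z‖ₑ ∂phaseMeasure A B C ≤
        K * ENNReal.ofReal |u|) →
      ∃ c : ℂ, F =ᵐ[phaseMeasure A B C] (fun _ => c) ∧ (lam ≠ 0 → c = 0)) ∧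
    (∀ (E : Set (ℂ × Dir)) (K : ℝ≥0), MeasurableSet E →
      (∀ t : ℝ, 0 ≤ t → ∀ᵐ z ∂phaseMeasure A B C, ∀ z' : ℂ × Dir,
        z'.1 ∈ openTriangle A B C → Reaches A B C z t z' → (z' ∈ E ↔ z ∈ E)) →
      (∀ u : ℝ, phaseMeasure A B C (symmDiff E {z | (z.1, z.2 + (u : Dir)) ∈ E}) ≤
        K * ENNReal.ofReal |u|) →
      phaseMeasure A B C E = 0 ∨ phaseMeasure A B C E = 1) := by
  intro A B C hcol hirr
  have hind : AffineIndependent ℝ ![A, B, C] := affineIndependent_iff_not_collinear_set.2 hcol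
  have htot : affineSpan ℝ (Set.range ![A, B, C]) = ⊤ := by
    rw [hind.affineSpan_eq_top_iff_card_eq_finrank_add_one]
    simp [Complex.finrank_real_complex]
  let b : AffineBasis (Fin 3) ℝ ℂ := ⟨![A, B, C], hind, htot⟩
  exact ⟨isProbability b, fun t ht => ae_existsUnique b ht,
    fun lam F K => eigenfunction_const b (irrTurn_of_irrational b hirr) lam F K,
    fun E K => invariantSet_trivial b (irrTurn_of_irrational b hirr) E K⟩

end Vale.Agent.Results.P099.BVRigidity
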