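import Vale.Agent.P099.Sym.Main

/-!
In every right triangle every invariant measurable function of the billiard flow is even under
velocity reversal; in every isosceles triangle it is even under mirrored velocity reversal.
-/

namespace Vale.Agent.Results.P099.ReversalSymmetry

open MeasureTheory Complex Vale.Agent.P099
open scoped RealInnerProductSpace

theorem result : ∀ A B C : ℂ, ¬ Collinear ℝ ({A, B, C} : Set ℂ) →
    ∀ F : ℂ × Dir → ℝ, AEMeasurable F (phaseMeasure A B C) →
      (∀ t : ℝ, 0 ≤ t → ∀ᵐ z ∂phaseMeasure A B C, ∀ z' : ℂ × Dir,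
        z'.1 ∈ openTriangle A B C → Reaches A B C z t z' → F z' = F z) →
      (⟪B - A, C - A⟫ = 0 →
        ∀ᵐ z ∂phaseMeasure A B C, F (z.1, z.2 + (Real.pi : Dir)) = F z) ∧
      (dist A B = dist A C →
        ∀ᵐ z ∂phaseMeasure A B C,
          F (A - cexp (((2 * Complex.arg (C - B) : ℝ) : ℂ) * I) * (starRingEnd ℂ) (z.1 - A),
            reflectDir B C z.2) = F z) := by
  intro A B C hcol F hF hinv
  have hind : AffineIndependent ℝ ![A, B, C] := affineIndependent_iff_not_collinear_set.2 hcol
  have htot : affineSpan ℝ (Set.range ![A, B, C]) = ⊤ := by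
    rw [hind.affineSpan_eq_top_iff_card_eq_finrank_add_one]
    simp [Complex.finrank_real_complex]
  let b : AffineBasis (Fin 3) ℝ ℂ := ⟨![A, B, C], hind, htot⟩
  obtain ⟨h1, h2⟩ := Sym.symm_vertex b F hF hinv
  refine ⟨h1, fun hd => ?_⟩
  have hd' : ‖B - A‖ = ‖C - A‖ := by
    rwa [dist_comm, dist_comm A C, dist_eq_norm, dist_eq_norm] at hd
  refine (h2 hd').mono fun z hz => ?_
  simp only [Sym.flipMap, Sym.axisRefl, linRefl_apply, mirrorRot, Circle.coe_exp] at hz
  exact hz

end Vale.Agent.Results.P099.ReversalSymmetry
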